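import Mathlib
import Vale.Agent.Lib.P249.Core

/-!
# P249: explicit linear dimension reduction in `ℓ_p` with a stretch / size trade-off

For integers `t ≥ 1`, `q` with `n < q ^ t`, every `n` points of `ℓ_p^m` are mapped by a linear map
into `ℓ_p^d`, preserving all `p`-th powers of distances up to `1 ± ε`, as soon as
`d > 8 (2 t - 1)^p q n log (2 n^2) / ε^2`.
-/

namespace Vale.Agent.Lib.P249.Old.ExplicitLinear

open Finset

theorem result (p : ℝ) (hp : 1 ≤ p) (n m t q d : ℕ) (ht : 1 ≤ t) (hq : n < q ^ t)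
    (ε : ℝ) (hε0 : 0 < ε) (hε1 : ε ≤ 1)
    (hd : 8 * (2 * (t : ℝ) - 1) ^ p * q * n * Real.log (2 * (n : ℝ) ^ 2) < ε ^ 2 * d)
    (x : Fin n → Fin m → ℝ) :
    ∃ T : (Fin m → ℝ) →ₗ[ℝ] (Fin d → ℝ), ∀ i j,
      (1 - ε) * ∑ k, |x i k - x j k| ^ p ≤ ∑ r, |T (x i - x j) r| ^ p ∧
      ∑ r, |T (x i - x j) r| ^ p ≤ (1 + ε) * ∑ k, |x i k - x j k| ^ p := by
  have hcast : ((2 * t - 1 : ℕ) : ℝ) = 2 * (t : ℝ) - 1 := by
    rw [Nat.cast_sub (by omega)]; push_cast; ring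
  have hd' : 4 * (((2 * t - 1 : ℕ) : ℝ) ^ p * (2 * q * n)) * Real.log (2 * (n : ℝ) ^ 2) <
      ε ^ 2 * d := by
    rw [hcast]
    calc 4 * ((2 * (t : ℝ) - 1) ^ p * (2 * q * n)) * Real.log (2 * (n : ℝ) ^ 2)
        = 8 * (2 * (t : ℝ) - 1) ^ p * q * n * Real.log (2 * (n : ℝ) ^ 2) := by ring
      _ < ε ^ 2 * d := hd
  obtain ⟨T, hT⟩ := Vale.Agent.Lib.P249.dim_reduction_linear p hp n m t q d ht hq ε hε0 hε1 hd' x
  refine ⟨T, fun i j => ?_⟩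
  have := hT i j
  simpa [map_sub] using this

end Vale.Agent.Lib.P249.Old.ExplicitLinear
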