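import Mathlib
import Vale.Agent.Lib.P249.Core

/-!
# P249: nearly linear dimension reduction for finite subsets of `ℓ_p`, every `p ≥ 1`

For every `p ≥ 1` and `D > 1` there is `C` with `d_p(n, D) ≤ C n (log n)^(p+1)` for all `n ≥ 2`.
For `p > 2` this improves the bounds `binom n 2` and `C n^(p/2) log n`.
-/

namespace Vale.Agent.Lib.P249.Old.NearLinear

open Finset

/-- The norm of `ℓ_p^d`: `(∑ |y k| ^ p) ^ (1 / p)`. -/
noncomputable def lpNorm (p : ℝ) {d : ℕ} (y : Fin d → ℝ) : ℝ := (∑ k, |y k| ^ p) ^ (1 / p)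

/-- `Embeds p n D d`: every `n`-point subset of every `ℓ_p^m` admits a map into `ℓ_p^d` with
distortion at most `D` (with a scaling factor `s > 0`, as in the problem). -/
def Embeds (p : ℝ) (n : ℕ) (D : ℝ) (d : ℕ) : Prop :=
  ∀ (m : ℕ) (x : Fin n → Fin m → ℝ), Function.Injective x →
    ∃ (f : Fin n → Fin d → ℝ) (s : ℝ), 0 < s ∧ ∀ i j,
      s * lpNorm p (x i - x j) ≤ lpNorm p (f i - f j) ∧
      lpNorm p (f i - f j) ≤ D * s * lpNorm p (x i - x j)

theorem result (p : ℝ) (hp : 1 ≤ p) (D : ℝ) (hD : 1 < D) :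
    ∃ C : ℝ, ∀ n : ℕ, 2 ≤ n →
      ∃ d : ℕ, (d : ℝ) ≤ C * n * (Real.log n) ^ (p + 1) ∧ Embeds p n D d := by
  have hp0 : 0 < p := by linarith
  have hpne : p ≠ 0 := hp0.ne'
  have hD0 : 0 < D := by linarith
  have hDp : 1 < D ^ p := Real.one_lt_rpow hD hp0
  set ε : ℝ := (D ^ p - 1) / (D ^ p + 1) with hε
  have hε0 : 0 < ε := by rw [hε]; apply div_pos <;> linarith
  have hε1 : ε < 1 := by rw [hε, div_lt_one (by linarith)]; linarith
  have h1mε : 1 - ε = 2 / (D ^ p + 1) := by rw [hε]; field_simp; ring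
  have h1pε : 1 + ε = D ^ p * (1 - ε) := by rw [h1mε, hε]; field_simp; ring
  refine ⟨48 * 5 ^ p / ε ^ 2 + 2 ^ p, fun n hn => ?_⟩
  have hnR : (2 : ℝ) ≤ n := by exact_mod_cast hn
  have hn0 : (0 : ℝ) < n := by linarith
  have hlog2 : (0.6931471803 : ℝ) < Real.log 2 := Real.log_two_gt_d9
  have hlogn : Real.log 2 ≤ Real.log n := Real.log_le_log (by norm_num) hnR
  have hlogn0 : 0 < Real.log n := by linarith
  set t : ℕ := Nat.log 2 n + 1 with ht
  have hδ : n < 2 ^ t := Nat.lt_pow_succ_log_self (by norm_num) n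
  set α : ℝ := ((2 * t - 1 : ℕ) : ℝ) with hα
  have hα0 : 0 ≤ α := Nat.cast_nonneg _
  have hαle : α ≤ 5 * Real.log n := by
    have h1 : ((Nat.log 2 n : ℕ) : ℝ) ≤ Real.logb 2 n := by
      have := Real.natLog_le_logb n 2
      simpa using this
    have h2 : Real.logb 2 n = Real.log n / Real.log 2 := rfl
    have h3 : α = 2 * (Nat.log 2 n : ℝ) + 1 := by
      rw [hα, ht]
      have : 2 * (Nat.log 2 n + 1) - 1 = 2 * Nat.log 2 n + 1 := by omega
      rw [this]; push_cast; ring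
    have h4 : Real.log n / Real.log 2 ≤ Real.log n / 0.6931471803 := by
      apply div_le_div_of_nonneg_left hlogn0.le (by norm_num) hlog2.le
    have h5 : Real.log n / 0.6931471803 ≤ 1.5 * Real.log n := by
      rw [div_le_iff₀ (by norm_num)]; nlinarith
    rw [h3]
    have h6 : (1 : ℝ) ≤ 2 * Real.log n := by linarith
    rw [h2] at h1
    linarith
  have hlog2n : Real.log (2 * (n : ℝ) ^ 2) ≤ 3 * Real.log n := by
    rw [Real.log_mul (by norm_num) (by positivity), Real.log_pow]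
    push_cast
    linarith
  have hlog2n0 : 0 ≤ Real.log (2 * (n : ℝ) ^ 2) := by
    apply Real.log_nonneg; nlinarith
  set X : ℝ := 4 * (α ^ p * (2 * (2 : ℕ) * n)) * Real.log (2 * (n : ℝ) ^ 2) / ε ^ 2 with hX
  have hαp0 : 0 ≤ α ^ p := Real.rpow_nonneg hα0 p
  have hX0 : 0 ≤ X := by rw [hX]; positivity
  refine ⟨⌊X⌋₊ + 1, ?_, ?_⟩
  · -- size of the dimension
    have h1 : ((⌊X⌋₊ + 1 : ℕ) : ℝ) ≤ X + 1 := by
      push_cast
      linarith [Nat.floor_le hX0]
    have h2 : α ^ p ≤ 5 ^ p * Real.log n ^ p := by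
      rw [← Real.mul_rpow (by norm_num) hlogn0.le]
      exact Real.rpow_le_rpow hα0 hαle hp0.le
    have h3 : Real.log n ^ (p + 1) = Real.log n ^ p * Real.log n := by
      rw [Real.rpow_add hlogn0, Real.rpow_one]
    have hlp0 : 0 < Real.log n ^ p := Real.rpow_pos_of_pos hlogn0 p
    have h4 : X ≤ 48 * 5 ^ p / ε ^ 2 * n * Real.log n ^ (p + 1) := by
      rw [hX, h3, div_le_iff₀ (by positivity)]
      have h5 : 4 * (α ^ p * (2 * ((2 : ℕ) : ℝ) * n)) * Real.log (2 * (n : ℝ) ^ 2) ≤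
          4 * ((5 ^ p * Real.log n ^ p) * (2 * ((2 : ℕ) : ℝ) * n)) * (3 * Real.log n) := by
        apply mul_le_mul _ hlog2n hlog2n0 (by positivity)
        apply mul_le_mul_of_nonneg_left _ (by norm_num)
        apply mul_le_mul_of_nonneg_right h2 (by positivity)
      refine h5.trans (le_of_eq ?_)
      push_cast
      field_simp
      ring
    have h6 : (1 : ℝ) ≤ 2 ^ p * n * Real.log n ^ (p + 1) := by
      have h7 : (1 / 2 : ℝ) ^ (p + 1) ≤ Real.log n ^ (p + 1) :=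
        Real.rpow_le_rpow (by norm_num) (by linarith) (by linarith)
      have h8 : (2 : ℝ) ^ p * 2 * (1 / 2 : ℝ) ^ (p + 1) = 1 := by
        rw [Real.rpow_add (by norm_num), Real.rpow_one, ← mul_assoc, mul_assoc ((2 : ℝ) ^ p) 2,
          mul_comm (2 : ℝ), ← mul_assoc, ← Real.mul_rpow (by norm_num) (by norm_num)]
        norm_num
      have h2p : 0 < (2 : ℝ) ^ p := Real.rpow_pos_of_pos (by norm_num) p
      calc (1 : ℝ) = (2 : ℝ) ^ p * 2 * (1 / 2 : ℝ) ^ (p + 1) := h8.symm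
        _ ≤ 2 ^ p * n * Real.log n ^ (p + 1) := by
          apply mul_le_mul _ h7 (by positivity) (by positivity)
          apply mul_le_mul_of_nonneg_left hnR h2p.le
    calc ((⌊X⌋₊ + 1 : ℕ) : ℝ) ≤ X + 1 := h1
      _ ≤ 48 * 5 ^ p / ε ^ 2 * n * Real.log n ^ (p + 1) + 2 ^ p * n * Real.log n ^ (p + 1) :=
          add_le_add h4 h6
      _ = (48 * 5 ^ p / ε ^ 2 + 2 ^ p) * n * Real.log n ^ (p + 1) := by ring
  · -- the embedding
    intro m x _
    have hd : 4 * (((2 * t - 1 : ℕ) : ℝ) ^ p * (2 * (2 : ℕ) * n)) * Real.log (2 * (n : ℝ) ^ 2) <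
        ε ^ 2 * ((⌊X⌋₊ + 1 : ℕ) : ℝ) := by
      have h1 : X < ((⌊X⌋₊ + 1 : ℕ) : ℝ) := by push_cast; exact Nat.lt_floor_add_one X
      have h2 : X * ε ^ 2 < ((⌊X⌋₊ + 1 : ℕ) : ℝ) * ε ^ 2 :=
        mul_lt_mul_of_pos_right h1 (by positivity)
      have h3 : X * ε ^ 2 =
          4 * (α ^ p * (2 * (2 : ℕ) * n)) * Real.log (2 * (n : ℝ) ^ 2) := by
        rw [hX]; field_simp
      rw [h3] at h2
      linarith
    obtain ⟨y, hy⟩ := Vale.Agent.Lib.P249.dim_reduction_core p hp n m t 2 (⌊X⌋₊ + 1)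
      (by omega) hδ ε hε0 hε1.le hd x
    have h1mε0 : 0 < 1 - ε := by linarith
    refine ⟨y, (1 - ε) ^ (1 / p), Real.rpow_pos_of_pos h1mε0 _, fun i j => ?_⟩
    obtain ⟨hlo, hhi⟩ := hy i j
    have hsx0 : 0 ≤ ∑ k, |x i k - x j k| ^ p := sum_nonneg (fun k _ => by positivity)
    have hinv0 : 0 ≤ 1 / p := by positivity
    simp only [lpNorm, Pi.sub_apply]
    constructor
    · rw [← Real.mul_rpow h1mε0.le hsx0]
      exact Real.rpow_le_rpow (mul_nonneg h1mε0.le hsx0) hlo hinv0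
    · have h5 : D * (1 - ε) ^ (1 / p) * (∑ k, |x i k - x j k| ^ p) ^ (1 / p) =
          ((1 + ε) * ∑ k, |x i k - x j k| ^ p) ^ (1 / p) := by
        rw [h1pε, Real.mul_rpow (by positivity) hsx0,
          Real.mul_rpow (by positivity) h1mε0.le, one_div, Real.rpow_rpow_inv hD0.le hpne]
      rw [h5]
      exact Real.rpow_le_rpow (sum_nonneg (fun k _ => by positivity)) hhi hinv0

end Vale.Agent.Lib.P249.Old.NearLinear
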